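import Mathlib

/-!
# The approximation problem of Ball and Evans in dimension three: the notions of the statement
-/

open Set MeasureTheory Filter Topology
open scoped ContDiff ENNReal

noncomputable section

namespace Vale.Agent.P073Z.Fin

/-- Euclidean 3-space. -/
abbrev R3 := EuclideanSpace ℝ (Fin 3)

/-- A bounded domain: nonempty, connected, open and bounded. -/
def IsBoundedDomain (Ω : Set R3) : Prop := IsOpen Ω ∧ IsConnected Ω ∧ Bornology.IsBounded Ω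

/-- The Euclidean (Frobenius) norm of a matrix. -/
def frob (A : Matrix (Fin 3) (Fin 3) ℝ) : ℝ := Real.sqrt (∑ i, ∑ j, A i j ^ 2)

/-- `f` lies in `W^{1,p}(Ω; ℝ³)` with weak derivative matrix `Df`: the components of `f` and the
entries of `Df` lie in `L^p(Ω)`, and `Df x i j` is the weak derivative of the component `i` in the
direction `j`, tested against all smooth functions with compact support in `Ω`. -/
def IsW1p (p : ℝ) (Ω : Set R3) (f : R3 → R3) (Df : R3 → Matrix (Fin 3) (Fin 3) ℝ) : Prop :=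
  (∀ i, MemLp (fun x => f x i) (ENNReal.ofReal p) (volume.restrict Ω)) ∧
  (∀ i j, MemLp (fun x => Df x i j) (ENNReal.ofReal p) (volume.restrict Ω)) ∧
  ∀ φ : R3 → ℝ, ContDiff ℝ ∞ φ → HasCompactSupport φ → tsupport φ ⊆ Ω → ∀ i j : Fin 3,
    ∫ x in Ω, f x i * fderiv ℝ φ x (EuclideanSpace.single j 1) = -∫ x in Ω, Df x i j * φ x

/-- `f` is a homeomorphism of `Ω` onto `Λ`. -/
def IsHomeoOnto (f : R3 → R3) (Ω Λ : Set R3) : Prop :=
  BijOn f Ω Λ ∧ ContinuousOn f Ω ∧ ∃ g : R3 → R3, InvOn g f Ω Λ ∧ ContinuousOn g Λ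

/-- `f` is a smooth bijection of `Ω` onto `Λ` with smooth inverse. -/
def IsDiffeoOnto (f : R3 → R3) (Ω Λ : Set R3) : Prop :=
  BijOn f Ω Λ ∧ ContDiffOn ℝ ∞ f Ω ∧ ∃ g : R3 → R3, InvOn g f Ω Λ ∧ ContDiffOn ℝ ∞ g Λ

/-- `f`, with weak derivative `Df`, is the limit in `W^{1,p}` of diffeomorphisms of `Ω` onto `Λ`
which lie in `W^{1,p}`. -/
def DiffeoApproximable (p : ℝ) (Ω Λ : Set R3) (f : R3 → R3)
    (Df : R3 → Matrix (Fin 3) (Fin 3) ℝ) : Prop :=
  ∃ (g : ℕ → R3 → R3) (Dg : ℕ → R3 → Matrix (Fin 3) (Fin 3) ℝ),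
    (∀ k, IsDiffeoOnto (g k) Ω Λ ∧ IsW1p p Ω (g k) (Dg k)) ∧
    Tendsto (fun k => ∫⁻ x in Ω,
      ENNReal.ofReal (‖g k x - f x‖ ^ p + frob (Dg k x - Df x) ^ p)) atTop (𝓝 0)

/-- The approximation statement for the exponent `p`. -/
def BallEvans (p : ℝ) : Prop :=
  ∀ (Ω Λ : Set R3) (f : R3 → R3) (Df : R3 → Matrix (Fin 3) (Fin 3) ℝ),
    IsBoundedDomain Ω → IsBoundedDomain Λ → IsHomeoOnto f Ω Λ → IsW1p p Ω f Df →
    DiffeoApproximable p Ω Λ f Df

end Vale.Agent.P073Z.Fin
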