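import Vale.Agent.P073.HB.Acl2
import Vale.Agent.P073Z.Fin.Stmt

/-!
# P073: matrices versus linear maps, smooth maps of finite energy are Sobolev
-/

open Set Metric MeasureTheory Topology Filter
open scoped ContDiff ENNReal NNReal

noncomputable section

namespace Vale.Agent.P073Z.Fin.W

open Vale.Agent.P073.HB

/-- elementary linear maps -/
def el (i j : Fin 3) : R3 →L[ℝ] R3 :=
  (EuclideanSpace.proj j : R3 →L[ℝ] ℝ).smulRight (EuclideanSpace.single i 1)

/-- the linear map of a matrix -/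
def clm (M : Matrix (Fin 3) (Fin 3) ℝ) : R3 →L[ℝ] R3 := ∑ i, ∑ j, M i j • el i j

/-- the matrix of a linear map -/
def mat (A : R3 →L[ℝ] R3) : Matrix (Fin 3) (Fin 3) ℝ := fun i j => A (EuclideanSpace.single j 1) i

theorem clm_apply (M : Matrix (Fin 3) (Fin 3) ℝ) (v : R3) (i : Fin 3) :
    clm M v i = ∑ j, M i j * v j := by
  fin_cases i <;> simp [clm, el, Fin.sum_univ_three]

theorem mat_clm (M : Matrix (Fin 3) (Fin 3) ℝ) : mat (clm M) = M := by
  ext i j
  rw [mat, clm_apply]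
  fin_cases j <;> simp

theorem mat_sub (A B : R3 →L[ℝ] R3) : mat (A - B) = mat A - mat B := by
  ext i j; simp [mat]

theorem abs_mat_le (A : R3 →L[ℝ] R3) (i j : Fin 3) : |mat A i j| ≤ ‖A‖ := by
  have h1 : |A (EuclideanSpace.single j 1) i| ≤ ‖A (EuclideanSpace.single j 1)‖ :=
    PiLp.norm_apply_le (A (EuclideanSpace.single j 1)) i
  have h2 := A.le_opNorm (EuclideanSpace.single j 1)
  rw [PiLp.norm_single, norm_one, mul_one] at h2
  exact h1.trans h2

theorem frob_mat_le (A : R3 →L[ℝ] R3) : frob (mat A) ≤ 3 * ‖A‖ := by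
  rw [frob]
  refine Real.sqrt_le_iff.2 ⟨by positivity, ?_⟩
  have h : ∀ i j, mat A i j ^ 2 ≤ ‖A‖ ^ 2 := fun i j => by
    rw [← sq_abs]; exact pow_le_pow_left₀ (abs_nonneg _) (abs_mat_le A i j) 2
  simp only [Fin.sum_univ_three]
  nlinarith [h 0 0, h 0 1, h 0 2, h 1 0, h 1 1, h 1 2, h 2 0, h 2 1, h 2 2]

theorem memLp_clm {Df : R3 → Matrix (Fin 3) (Fin 3) ℝ} {q : ℝ≥0∞} {μ : Measure R3}
    (h : ∀ i j, MemLp (fun x => Df x i j) q μ) : MemLp (fun x => clm (Df x)) q μ := by
  have h1 : ∀ i j, MemLp (fun x => Df x i j • el i j) q μ := fun i j => by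
    have := (ContinuousLinearMap.toSpanSingleton ℝ (el i j)).comp_memLp' (h i j)
    simpa [Function.comp_def] using this
  have h2 : ∀ i, MemLp (fun x => ∑ j, Df x i j • el i j) q μ := fun i =>
    memLp_finsetSum (f := fun j x => Df x i j • el i j) _ fun j _ => h1 i j
  exact memLp_finsetSum (f := fun i x => ∑ j, Df x i j • el i j) _ fun i _ => h2 i

theorem memLp_vec {f : R3 → R3} {q : ℝ≥0∞} {μ : Measure R3}
    (h : ∀ i, MemLp (fun x => f x i) q μ) : MemLp f q μ := by
  have h1 : f = fun x => ∑ i, f x i • (EuclideanSpace.single i (1 : ℝ) : R3) := by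
    ext x k
    fin_cases k <;> simp [Fin.sum_univ_three]
  rw [h1]
  refine memLp_finsetSum _ fun i _ => ?_
  have := (ContinuousLinearMap.toSpanSingleton ℝ
    (EuclideanSpace.single i (1 : ℝ) : R3)).comp_memLp' (h i)
  simpa [Function.comp_def] using this

theorem fin_restrict {Ω : Set R3} (hb : Bornology.IsBounded Ω) :
    IsFiniteMeasure (volume.restrict Ω) := ⟨by simpa using hb.measure_lt_top⟩

theorem one_le {p : ℝ} (hp : 1 ≤ p) : 1 ≤ ENNReal.ofReal p := by
  simpa using ENNReal.ofReal_le_ofReal hp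

theorem int_mul {u φ : R3 → ℝ} {μ : Measure R3} (hu : Integrable u μ) (hφ : Continuous φ)
    (hc : HasCompactSupport φ) : Integrable (fun x => u x * φ x) μ := by
  obtain ⟨C, hC⟩ := hφ.bounded_above_of_compact_support hc
  exact hu.mul_bdd hφ.aestronglyMeasurable (ae_of_all _ hC)

theorem fderiv_sum (φ : R3 → ℝ) (x v : R3) :
    fderiv ℝ φ x v = ∑ j, v j * fderiv ℝ φ x (EuclideanSpace.single j 1) := by
  have h1 : v = ∑ j, v j • (EuclideanSpace.single j (1 : ℝ) : R3) := by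
    ext k
    fin_cases k <;> simp [Fin.sum_univ_three]
  conv_lhs => rw [h1]
  simp

theorem cont_fderiv {φ : R3 → ℝ} (hφ : ContDiff ℝ ∞ φ) (v : R3) :
    Continuous fun x => fderiv ℝ φ x v :=
  (hφ.continuous_fderiv (by simp)).clm_apply continuous_const

theorem weak_of {p : ℝ} {Ω : Set R3} {f : R3 → R3} {Df : R3 → Matrix (Fin 3) (Fin 3) ℝ}
    (hp : 1 ≤ p) (hb : Bornology.IsBounded Ω) (h : IsW1p p Ω f Df) :
    WeakDeriv volume Ω f (fun x => clm (Df x)) := by
  intro φ hφ hc hs v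
  have := fin_restrict hb
  have hf : ∀ i, Integrable (fun x => f x i) (volume.restrict Ω) := fun i =>
    (h.1 i).integrable (one_le hp)
  have hD : ∀ i j, Integrable (fun x => Df x i j) (volume.restrict Ω) := fun i j =>
    (h.2.1 i j).integrable (one_le hp)
  obtain ⟨C, hC⟩ := hφ.continuous.bounded_above_of_compact_support hc
  obtain ⟨C', hC'⟩ := (cont_fderiv hφ v).bounded_above_of_compact_support
    (hc.fderiv_apply (𝕜 := ℝ) v)
  have i1 : Integrable (fun x => φ x • clm (Df x) v) (volume.restrict Ω) :=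
    Integrable.bdd_smul (((memLp_clm h.2.1).integrable (one_le hp)).apply_continuousLinearMap v)
      C hφ.continuous.aestronglyMeasurable (ae_of_all _ hC)
  have i2 : Integrable (fun x => fderiv ℝ φ x v • f x) (volume.restrict Ω) :=
    Integrable.bdd_smul ((memLp_vec h.1).integrable (one_le hp))
      C' (cont_fderiv hφ v).aestronglyMeasurable (ae_of_all _ hC')
  ext i
  have e1 := (EuclideanSpace.proj i : R3 →L[ℝ] ℝ).integral_comp_comm i1
  have e2 := (EuclideanSpace.proj i : R3 →L[ℝ] ℝ).integral_comp_comm i2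
  simp only [PiLp.proj_apply] at e1 e2
  rw [PiLp.neg_apply, ← e1, ← e2]
  have l1 : ∀ x, (φ x • clm (Df x) v) i = ∑ j, v j * (Df x i j * φ x) := by
    intro x
    rw [PiLp.smul_apply, clm_apply, smul_eq_mul, Finset.mul_sum]
    exact Finset.sum_congr rfl fun j _ => by ring
  have l2 : ∀ x, (fderiv ℝ φ x v • f x) i =
      ∑ j, v j * (f x i * fderiv ℝ φ x (EuclideanSpace.single j 1)) := by
    intro x
    rw [PiLp.smul_apply, fderiv_sum, smul_eq_mul, Finset.sum_mul]
    exact Finset.sum_congr rfl fun j _ => by ring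
  simp only [l1, l2]
  rw [integral_finsetSum _ fun j _ => (int_mul (hD i j) hφ.continuous hc).const_mul _,
    integral_finsetSum _ fun j _ => (int_mul (hf i) (cont_fderiv hφ _)
      (hc.fderiv_apply (𝕜 := ℝ) _)).const_mul _, ← Finset.sum_neg_distrib]
  refine Finset.sum_congr rfl fun j _ => ?_
  rw [integral_const_mul, integral_const_mul, h.2.2 φ hφ hc hs i j]
  ring

theorem int_of_supp {u φ : R3 → ℝ} {Ω : Set R3} (hs : tsupport φ ⊆ Ω)
    (h : Integrable (fun x => u x * φ x) (volume.restrict Ω)) :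
    Integrable (fun x => u x * φ x) volume ∧
      ∫ x in Ω, u x * φ x = ∫ x, u x * φ x := by
  have h0 : ∀ x, x ∉ Ω → u x * φ x = 0 := fun x hx => by
    rw [image_eq_zero_of_notMem_tsupport (fun h => hx (hs h)), mul_zero]
  exact ⟨(IntegrableOn.integrable_of_forall_notMem_eq_zero h h0),
    setIntegral_eq_integral_of_forall_compl_eq_zero h0⟩

theorem isW1p_of_smooth {p : ℝ} {Ω Λ : Set R3} {g : R3 → R3} (hp : 1 ≤ p) (hΩ : IsOpen Ω)
    (hb : Bornology.IsBounded Ω) (hbΛ : Bornology.IsBounded Λ) (hg : ContDiffOn ℝ ∞ g Ω)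
    (hm : MapsTo g Ω Λ) (hD : MemLp (fderiv ℝ g) (ENNReal.ofReal p) (volume.restrict Ω)) :
    IsW1p p Ω g (fun x => mat (fderiv ℝ g x)) := by
  have := fin_restrict hb
  obtain ⟨R, hR⟩ := hbΛ.exists_norm_le
  have hgL : MemLp g (ENNReal.ofReal p) (volume.restrict Ω) :=
    MemLp.of_bound (hg.continuousOn.aestronglyMeasurable hΩ.measurableSet) R
      ((ae_restrict_mem hΩ.measurableSet).mono fun x hx => hR _ (hm hx))
  have h1 : ∀ i, MemLp (fun x => g x i) (ENNReal.ofReal p) (volume.restrict Ω) := fun i =>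
    (EuclideanSpace.proj i : R3 →L[ℝ] ℝ).comp_memLp' hgL
  have h2 : ∀ i j, MemLp (fun x => mat (fderiv ℝ g x) i j) (ENNReal.ofReal p)
      (volume.restrict Ω) := fun i j =>
    ((EuclideanSpace.proj i : R3 →L[ℝ] ℝ).comp
      (ContinuousLinearMap.apply ℝ R3 (EuclideanSpace.single j (1 : ℝ)))).comp_memLp' hD
  refine ⟨h1, h2, fun φ hφ hc hs i j => ?_⟩
  have hdiff : ∀ x ∈ Ω, DifferentiableAt ℝ g x := fun x hx =>
    (hg.contDiffAt (hΩ.mem_nhds hx)).differentiableAt (by simp)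
  have hd : ∀ x ∈ Ω, HasFDerivAt (fun y => g y i)
      ((EuclideanSpace.proj i : R3 →L[ℝ] ℝ).comp (fderiv ℝ g x)) x := fun x hx =>
    (EuclideanSpace.proj i : R3 →L[ℝ] ℝ).hasFDerivAt.comp x (hdiff x hx).hasFDerivAt
  have hs' : tsupport (fun x => fderiv ℝ φ x (EuclideanSpace.single j 1)) ⊆ Ω :=
    (tsupport_fderiv_apply_subset ℝ _).trans hs
  obtain ⟨a1, b1⟩ := int_of_supp hs (int_mul ((h2 i j).integrable (one_le hp)) hφ.continuous hc)
  obtain ⟨a2, b2⟩ := int_of_supp hs' (int_mul ((h1 i).integrable (one_le hp))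
    (cont_fderiv hφ _) (hc.fderiv_apply (𝕜 := ℝ) _))
  obtain ⟨a3, -⟩ := int_of_supp hs (int_mul ((h1 i).integrable (one_le hp)) hφ.continuous hc)
  rw [b1, b2]
  exact integral_bilinear_hasFDerivAt_right_eq_neg_left_of_integrable
    (f := fun x => g x i) (f' := fun x => (EuclideanSpace.proj i : R3 →L[ℝ] ℝ).comp (fderiv ℝ g x))
    (g := φ) (g' := fderiv ℝ φ) (v := EuclideanSpace.single j 1)
    (B := ContinuousLinearMap.mul ℝ ℝ) a1 a2 a3 (fun x hx => hd x (hs hx))
    (fun x _ => (hφ.differentiable (by simp) x).hasFDerivAt)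

end Vale.Agent.P073Z.Fin.W
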