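import Vale.Agent.P073Z.Fin.Tr
import Vale.Agent.P073Z.Fin.W

/-!
# P073: the approximation statement from the two halves
-/

open Set Metric MeasureTheory Topology Filter
open scoped ContDiff ENNReal NNReal

noncomputable section

namespace Vale.Agent.P073Z.Fin

open Vale.Agent.P073Z.Sm W

/-- the smoothing statement for one exponent -/
def MAINp (p : ℝ) : Prop :=
  ∀ (g : E → E) (Ω Λ P : Set E) (ε : ℝ≥0∞), IsOpen Ω → IsOpen Λ →
    Bornology.IsBounded Ω → Bornology.IsBounded Λ → Homeo g Ω Λ → LocFin P Ω →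
    (∀ x ∈ Ω, x ∉ P → ConeAt g x) → En p Ω g < ⊤ → 0 < ε →
    ∃ F G : E → E, ContDiffOn ℝ ∞ F Ω ∧ ContDiffOn ℝ ∞ G Λ ∧ BijOn F Ω Λ ∧ InvOn G F Ω Λ ∧
      Dist p Ω F g ≤ ε

theorem lint_eq {X : Type} [NormedAddCommGroup X] {p : ℝ} (hp : 1 ≤ p) (a : E → X)
    (μ : Measure E) : ∫⁻ x, ‖a x‖ₑ ^ p ∂μ = eLpNorm a (ENNReal.ofReal p) μ ^ p := by
  have hp0 : 0 < p := by linarith
  rw [eLpNorm_eq_lintegral_rpow_enorm_toReal (by simpa using hp0) ENNReal.ofReal_ne_top,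
    ENNReal.toReal_ofReal hp0.le, ← ENNReal.rpow_mul, one_div, inv_mul_cancel₀ hp0.ne',
    ENNReal.rpow_one]

theorem eLp_le {X : Type} [NormedAddCommGroup X] {p : ℝ} (hp : 1 ≤ p) {a : E → X}
    {μ : Measure E} {c : ℝ≥0∞} (h : ∫⁻ x, ‖a x‖ₑ ^ p ∂μ ≤ c) :
    eLpNorm a (ENNReal.ofReal p) μ ≤ c ^ p⁻¹ := by
  have hp0 : 0 < p := by linarith
  rw [lint_eq hp] at h
  exact (ENNReal.le_rpow_inv_iff hp0).2 h

theorem memLp_of_sub {X : Type} [NormedAddCommGroup X] {q c : ℝ≥0∞} {μ : Measure E}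
    {a b : E → X} (ha : AEStronglyMeasurable a μ) (hb : MemLp b q μ)
    (h : eLpNorm (fun x => a x - b x) q μ ≤ c) (hc : c < ⊤) : MemLp a q μ := by
  have h1 : MemLp (a - b) q μ := ⟨ha.sub hb.1, h.trans_lt hc⟩
  simpa using h1.add hb

theorem tri {X : Type} [NormedAddCommGroup X] {q : ℝ≥0∞} {μ : Measure E} (hq : 1 ≤ q)
    {a b c : E → X} (ha : AEStronglyMeasurable a μ) (hb : AEStronglyMeasurable b μ)
    (hc : AEStronglyMeasurable c μ) : eLpNorm (fun x => a x - c x) q μ ≤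
      eLpNorm (fun x => a x - b x) q μ + eLpNorm (fun x => b x - c x) q μ := by
  have e1 : (fun x => a x - c x) = (fun x => a x - b x) + fun x => b x - c x := by
    ext1 x; simp
  rw [e1]
  exact eLpNorm_add_le (ha.sub hb) (hb.sub hc) hq

/-- one approximation step -/
theorem step {p : ℝ} (hp : 1 ≤ p) (hPL : PLAE p) (hM : MAINp p) {Ω Λ : Set E} {f : E → E}
    {Df : E → Matrix (Fin 3) (Fin 3) ℝ} (hΩ : IsBoundedDomain Ω) (hΛ : IsBoundedDomain Λ)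
    (hf : IsHomeoOnto f Ω Λ) (hW : IsW1p p Ω f Df) {ε : ℝ} (hε : 0 < ε) :
    ∃ g : E → E, IsDiffeoOnto g Ω Λ ∧ IsW1p p Ω g (fun x => mat (fderiv ℝ g x)) ∧
      eLpNorm (fun x => g x - f x) (ENNReal.ofReal p) (volume.restrict Ω) ≤
        ENNReal.ofReal ε + volume Ω ^ p⁻¹ * ENNReal.ofReal ε ∧
      eLpNorm (fun x => fderiv ℝ g x - clm (Df x)) (ENNReal.ofReal p) (volume.restrict Ω) ≤
        ENNReal.ofReal ε + ENNReal.ofReal ε ^ p⁻¹ := by
  have hp0 : 0 < p := by linarith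
  obtain ⟨hb, hc, f', hinv, hc'⟩ := hf
  have hH : P073.HomeoOn f f' Ω Λ :=
    ⟨hb.mapsTo, fun y hy => by
      obtain ⟨x, hx, rfl⟩ := hb.surjOn hy
      rw [hinv.1 hx]; exact hx, hinv.1, hinv.2, hc, hc'⟩
  have hF := memLp_clm hW.2.1
  obtain ⟨h, Z, hh, hZ, hcone, hcl, hen⟩ := hPL Ω Λ f f' (fun x => clm (Df x)) ε hΩ.1 hΛ.1 hΩ.2.1
    hΛ.2.1 hΩ.2.2 hΛ.2.2 hε hH hF.1
    (by rw [lint_eq hp]; exact ENNReal.rpow_lt_top_of_nonneg hp0.le hF.2.ne)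
    (weak_of hp hΩ.2.2 hW)
  have hen' := eLp_le hp hen
  have hmeas : ∀ k : E → E, AEStronglyMeasurable (fderiv ℝ k) (volume.restrict Ω) := fun k =>
    (measurable_fderiv ℝ k).aestronglyMeasurable
  have hfin : (ENNReal.ofReal ε) ^ p⁻¹ < ⊤ :=
    ENNReal.rpow_lt_top_of_nonneg (by positivity) ENNReal.ofReal_ne_top
  have hDh : MemLp (fderiv ℝ h) (ENNReal.ofReal p) (volume.restrict Ω) :=
    memLp_of_sub (hmeas h) hF hen' hfin
  obtain ⟨g, G, hg, hG, hgb, hgi, hd⟩ := hM h Ω Λ Z (ENNReal.ofReal ε) hΩ.1 hΛ.1 hΩ.2.2 hΛ.2.2 hh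
    hZ hcone (by
      rw [En, lint_eq hp]; exact ENNReal.rpow_lt_top_of_nonneg hp0.le hDh.2.ne)
    (ENNReal.ofReal_pos.2 hε)
  have hd1 := le_self_add.trans hd
  have hd2 := le_add_self.trans hd
  have hDg : MemLp (fderiv ℝ g) (ENNReal.ofReal p) (volume.restrict Ω) :=
    memLp_of_sub (hmeas g) hDh hd1 ENNReal.ofReal_lt_top
  have hm := hΩ.1.measurableSet
  refine ⟨g, ⟨hgb, hg, G, hgi, hG⟩, isW1p_of_smooth hp hΩ.1 hΩ.2.2 hΛ.2.2 hg hgb.mapsTo hDg, ?_, ?_⟩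
  · refine (tri (one_le hp) (hg.continuousOn.aestronglyMeasurable hm)
      (hh.cont.aestronglyMeasurable hm) (hc.aestronglyMeasurable hm)).trans (add_le_add hd2 ?_)
    have := eLpNorm_le_of_ae_bound (p := ENNReal.ofReal p) (μ := volume.restrict Ω)
      (f := fun x => h x - f x) (C := ε) ((ae_restrict_mem hm).mono hcl)
    simpa [ENNReal.toReal_ofReal hp0.le] using this
  · exact (tri (one_le hp) (hmeas g) (hmeas h) hF.1).trans (add_le_add hd1 hen')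

theorem integrand_le {p : ℝ} (hp : 0 ≤ p) (v : E) (A : E →L[ℝ] E) (M : Matrix (Fin 3) (Fin 3) ℝ) :
    ENNReal.ofReal (‖v‖ ^ p + frob (mat A - M) ^ p) ≤ ‖v‖ₑ ^ p + 3 ^ p * ‖A - clm M‖ₑ ^ p := by
  have h1 : frob (mat A - M) ≤ 3 * ‖A - clm M‖ := by
    have := frob_mat_le (A - clm M)
    rwa [mat_sub, mat_clm] at this
  have h0 : 0 ≤ frob (mat A - M) := Real.sqrt_nonneg _
  refine ENNReal.ofReal_add_le.trans (add_le_add ?_ ?_)
  · rw [← ENNReal.ofReal_rpow_of_nonneg (norm_nonneg _) hp, ofReal_norm]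
  · rw [← ENNReal.ofReal_rpow_of_nonneg h0 hp, ← ENNReal.mul_rpow_of_nonneg _ _ hp]
    refine ENNReal.rpow_le_rpow ((ENNReal.ofReal_le_ofReal h1).trans_eq ?_) hp
    rw [ENNReal.ofReal_mul (by norm_num), ofReal_norm]
    norm_num

theorem ballEvans_of_p {p : ℝ} (hp : 1 ≤ p) (hPL : PLAE p) (hM : MAINp p) : BallEvans p := by
  intro Ω Λ f Df hΩ hΛ hf hW
  have hp0 : 0 < p := by linarith
  choose g hg hgW h1 h2 using fun k : ℕ =>
    step hp hPL hM hΩ hΛ hf hW (ε := 1 / ((k : ℝ) + 1)) (by positivity)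
  refine ⟨g, fun k x => mat (fderiv ℝ (g k) x), fun k => ⟨hg k, hgW k⟩, ?_⟩
  set e : ℕ → ℝ≥0∞ := fun k => ENNReal.ofReal (1 / ((k : ℝ) + 1)) with he
  have te : Tendsto e atTop (𝓝 0) := by
    have := ENNReal.tendsto_ofReal (tendsto_one_div_add_atTop_nhds_zero_nat (𝕜 := ℝ))
    simpa [he] using this
  have hV : volume Ω ^ p⁻¹ ≠ ⊤ :=
    ENNReal.rpow_ne_top_of_nonneg (by positivity) hΩ.2.2.measure_lt_top.ne
  have pw : ∀ {q : ℝ}, 0 < q → ∀ {u : ℕ → ℝ≥0∞}, Tendsto u atTop (𝓝 0) →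
      Tendsto (fun k => u k ^ q) atTop (𝓝 0) := by
    intro q hq u hu
    have := (ENNReal.continuous_rpow_const (y := q)).continuousAt.tendsto.comp hu
    simpa [Function.comp_def, ENNReal.zero_rpow_of_pos hq] using this
  have t1 : Tendsto (fun k => e k + volume Ω ^ p⁻¹ * e k) atTop (𝓝 0) := by
    simpa using te.add (ENNReal.Tendsto.const_mul te (Or.inr hV))
  have t2 : Tendsto (fun k => e k + e k ^ p⁻¹) atTop (𝓝 0) := by
    simpa using te.add (pw (inv_pos.2 hp0) te)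
  have h3 : (3 : ℝ≥0∞) ^ p ≠ ⊤ := ENNReal.rpow_ne_top_of_nonneg hp0.le (by norm_num)
  have t3 : Tendsto (fun k => (e k + volume Ω ^ p⁻¹ * e k) ^ p + 3 ^ p * (e k + e k ^ p⁻¹) ^ p)
      atTop (𝓝 0) := by
    simpa using (pw hp0 t1).add (ENNReal.Tendsto.const_mul (pw hp0 t2) (Or.inr h3))
  refine tendsto_of_tendsto_of_tendsto_of_le_of_le tendsto_const_nhds t3 (fun _ => zero_le)
    fun k => ?_
  have hm : AEMeasurable (fun x => ‖g k x - f x‖ₑ ^ p) (volume.restrict Ω) :=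
    (((hg k).2.1.continuousOn.sub hf.2.1).aestronglyMeasurable
      hΩ.1.measurableSet).enorm.pow_const p
  refine (lintegral_mono fun x => integrand_le hp0.le _ _ _).trans ?_
  rw [lintegral_add_left' hm, lintegral_const_mul' _ _ h3, lint_eq hp, lint_eq hp]
  gcongr
  · exact h1 k
  · exact h2 k

theorem ballEvans_of (hPLA : P073.PLA) (hM : StmtMAIN) (p : ℝ) (hp1 : 1 ≤ p) (hp2 : p < 2) :
    BallEvans p :=
  ballEvans_of_p hp1 (plae_of hPLA hp1 hp2) fun g Ω Λ P ε => hM p g Ω Λ P ε hp1 hp2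

end Vale.Agent.P073Z.Fin
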