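import Vale.Agent.P073Z.Sm.All0
import Vale.Agent.P073Z.Sm.SQ
import Vale.Agent.P073Z.Fin.Main

/-!
# P073: the smoothing theorem, and the approximation statement from the piecewise linear half
-/

namespace Vale.Agent.P073Z.Fin

open Vale.Agent.P073Z.Sm

theorem smoothing : StmtMAIN := main_of blockSQ

theorem ballEvans_of_PLA (hPLA : P073.PLA) (p : ℝ) (hp1 : 1 ≤ p) (hp2 : p < 2) : BallEvans p :=
  ballEvans_of hPLA smoothing p hp1 hp2

end Vale.Agent.P073Z.Fin
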