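import Vale.Agent.P073Z.Sk1
import Vale.Agent.P073Z.Sm.Sk

/-!
# P073: transfer of the piecewise linear approximation to Euclidean space
-/

open Set Metric MeasureTheory Topology Filter
open scoped ContDiff ENNReal NNReal

noncomputable section

namespace Vale.Agent.P073Z.Fin

open Vale.Agent.P073Z.Sm Vale.Agent.P073.HB

/-- the approximation by maps which are conical off a locally finite set, Euclidean version -/
def PLAE (p : ℝ) : Prop :=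
  ∀ (Ω Λ : Set E) (f f' : E → E) (F : E → (E →L[ℝ] E)) (ε : ℝ),
    IsOpen Ω → IsOpen Λ → IsConnected Ω → IsConnected Λ → Bornology.IsBounded Ω →
    Bornology.IsBounded Λ → 0 < ε → P073.HomeoOn f f' Ω Λ →
    AEStronglyMeasurable F (volume.restrict Ω) → ∫⁻ x in Ω, ‖F x‖ₑ ^ p < ⊤ →
    WeakDeriv volume Ω f F →
    ∃ (h : E → E) (Z : Set E), Homeo h Ω Λ ∧ LocFin Z Ω ∧ (∀ x ∈ Ω, x ∉ Z → ConeAt h x) ∧
      (∀ x ∈ Ω, ‖h x - f x‖ ≤ ε) ∧ ∫⁻ x in Ω, ‖fderiv ℝ h x - F x‖ₑ ^ p ≤ ENNReal.ofReal ε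

namespace Tr

/-- the coordinate map -/
def ψ : E ≃L[ℝ] P073.E3 := EuclideanSpace.equiv (Fin 3) ℝ

theorem mp_symm : MeasurePreserving (ψ.symm : P073.E3 → E) volume volume :=
  PiLp.volume_preserving_toLp (Fin 3)

theorem mp : MeasurePreserving (ψ : E → P073.E3) volume volume :=
  PiLp.volume_preserving_ofLp (Fin 3)

theorem emb_symm : MeasurableEmbedding (ψ.symm : P073.E3 → E) :=
  ψ.symm.toHomeomorph.measurableEmbedding

theorem lint_le {X Y A B : Type} [MeasurableSpace X] [MeasurableSpace Y] [NormedAddCommGroup A]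
    [NormedSpace ℝ A] [NormedAddCommGroup B] [NormedSpace ℝ B] {μ : Measure X} {ν : Measure Y}
    {e : X → Y} (he : MeasurePreserving e μ ν) (hemb : MeasurableEmbedding e) (L : A →L[ℝ] B)
    (a : Y → A) (s : Set Y) {p : ℝ} (hp : 0 ≤ p) :
    ∫⁻ x in e ⁻¹' s, ‖L (a (e x))‖ₑ ^ p ∂μ ≤ ‖L‖ₑ ^ p * ∫⁻ y in s, ‖a y‖ₑ ^ p ∂ν := by
  rw [← he.setLIntegral_comp_preimage_emb hemb (fun y => ‖a y‖ₑ ^ p) s,
    ← lintegral_const_mul' _ _ (ENNReal.rpow_ne_top_of_nonneg hp enorm_ne_top)]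
  refine lintegral_mono fun x => ?_
  rw [← ENNReal.mul_rpow_of_nonneg _ _ hp]
  exact ENNReal.rpow_le_rpow (L.le_opENorm _) hp

theorem homeo_of_homeoOn {h h' : E → E} {Ω Λ : Set E} (hΛ : IsOpen Λ)
    (H : P073.HomeoOn h h' Ω Λ) : Homeo h Ω Λ := by
  have hb : BijOn h Ω Λ := (InvOn.bijOn ⟨H.left_inv, H.right_inv⟩ H.mapsTo H.mapsTo_inv)
  refine ⟨H.cont, hb, fun V hV hVΩ => ?_⟩
  have : h '' V = Λ ∩ h' ⁻¹' V := by
    ext y
    constructor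
    · rintro ⟨x, hx, rfl⟩
      exact ⟨H.mapsTo (hVΩ hx), by
        show h' (h x) ∈ V
        rw [H.left_inv (hVΩ hx)]; exact hx⟩
    · rintro ⟨hy, hy'⟩
      exact ⟨h' y, hy', H.right_inv hy⟩
  rw [this]
  exact H.cont_inv.isOpen_inter_preimage hΛ hV

theorem homeoOn_conj {X Y : Type} [TopologicalSpace X] [TopologicalSpace Y] (e : X ≃ₜ Y)
    {f f' : Y → Y} {Ω Λ : Set Y} (H : P073.HomeoOn f f' Ω Λ) :
    P073.HomeoOn (fun x => e.symm (f (e x))) (fun x => e.symm (f' (e x))) (e ⁻¹' Ω) (e ⁻¹' Λ) where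
  mapsTo x hx := by simpa using H.mapsTo hx
  mapsTo_inv x hx := by simpa using H.mapsTo_inv hx
  left_inv x hx := by simp [H.left_inv hx]
  right_inv x hx := by simp [H.right_inv hx]
  cont := e.symm.continuous.comp_continuousOn
    (H.cont.comp e.continuous.continuousOn (fun _ hx => hx))
  cont_inv := e.symm.continuous.comp_continuousOn
    (H.cont_inv.comp e.continuous.continuousOn (fun _ hx => hx))

theorem weak_conj {Ω : Set E} {f : E → E} {F : E → (E →L[ℝ] E)} (hw : WeakDeriv volume Ω f F) :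
    WeakDeriv volume (ψ.symm ⁻¹' Ω) (fun y => ψ (f (ψ.symm y)))
      (fun y => (ψ.arrowCongr ψ) (F (ψ.symm y))) := by
  intro φ hφ hc hs v
  have hts : tsupport (fun x => φ (ψ x)) = ψ ⁻¹' tsupport φ :=
    tsupport_comp_eq_preimage φ ψ.toHomeomorph
  have h := hw (fun x => φ (ψ x)) (hφ.comp ψ.contDiff) (hc.comp_homeomorph ψ.toHomeomorph)
    (by
      rw [hts]
      intro x hx
      simpa using hs hx) (ψ.symm v)
  have h2 := congrArg ψ h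
  rw [map_neg, ← ψ.integral_comp_comm, ← ψ.integral_comp_comm,
    ← mp_symm.setIntegral_preimage_emb emb_symm, ← mp_symm.setIntegral_preimage_emb emb_symm] at h2
  have hd : ∀ y : P073.E3, fderiv ℝ (fun x => φ (ψ x)) (ψ.symm y) (ψ.symm v) = fderiv ℝ φ y v := by
    intro y
    have := ψ.comp_right_fderiv (f := φ) (x := ψ.symm y)
    have h3 : fderiv ℝ (fun x => φ (ψ x)) (ψ.symm y) =
      (fderiv ℝ φ (ψ (ψ.symm y))).comp (ψ : E →L[ℝ] P073.E3) := this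
    rw [h3]; simp
  simp only [hd, map_smul, ContinuousLinearEquiv.apply_symm_apply] at h2
  simpa [ContinuousLinearEquiv.arrowCongr_apply] using h2

theorem locFin_of {Z Ω : Set E} (hZ : P073.DiscreteIn Z Ω) : LocFin Z Ω := by
  refine ⟨hZ.1, fun K hK hKΩ => ?_⟩
  refine hK.induction_on (p := fun s => (Z ∩ s).Finite) (by simp) ?_ ?_ ?_
  · intro s t hst ht
    exact ht.subset (inter_subset_inter_right _ hst)
  · intro s t hs ht
    rw [inter_union_distrib_left]; exact hs.union ht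
  · intro x hx
    obtain ⟨U, hU, hf⟩ := hZ.2 x (hKΩ hx)
    exact ⟨U, mem_nhdsWithin_of_mem_nhds hU, hf⟩

theorem isOpen_diff {T : Type} [TopologicalSpace T] [T1Space T] {Z Ω : Set T} (hΩ : IsOpen Ω)
    (hZ : P073.DiscreteIn Z Ω) : IsOpen (Ω \ Z) := by
  rw [isOpen_iff_mem_nhds]
  intro x hx
  obtain ⟨U, hU, hf⟩ := hZ.2 x hx.1
  have h1 : (Z ∩ U)ᶜ ∈ 𝓝 x := hf.isClosed.isOpen_compl.mem_nhds (fun h => hx.2 h.1)
  filter_upwards [hΩ.mem_nhds hx.1, hU, h1] with y hy hyU hy1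
  exact ⟨hy, fun hz => hy1 ⟨hz, hyU⟩⟩

theorem coneAt_of {k : P073.E3 → P073.E3} {X : Set P073.E3} (hX : IsOpen X) {x : E}
    (hx : ψ x ∈ X) (hk : P073.ConicalWithinAt k X (ψ x)) :
    ConeAt (fun y => ψ.symm (k (ψ y))) x := by
  obtain ⟨r, hr, H⟩ := hk
  have h1 : ψ ⁻¹' (X ∩ closedBall (ψ x) r) ∈ 𝓝 x :=
    ψ.continuous.continuousAt.preimage_mem_nhds
      (inter_mem (hX.mem_nhds hx) (closedBall_mem_nhds _ hr))
  obtain ⟨s, hs, hb⟩ := Metric.nhds_basis_closedBall.mem_iff.1 h1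
  refine ⟨s, hs, fun v hv t ht => ?_⟩
  have h2 : x + v ∈ closedBall x s := by
    rw [mem_closedBall, dist_eq_norm, add_sub_cancel_left]; exact hv
  obtain ⟨h3, h4⟩ := hb h2
  rw [map_add] at h3 h4
  rw [mem_closedBall, dist_eq_norm, add_sub_cancel_left] at h4
  have := (H (ψ v) h4 h3 t ht).2
  simp only [map_add, map_smul, this, map_sub]

/-- conjugation of linear maps -/
def Ψ : (E →L[ℝ] E) ≃L[ℝ] (P073.E3 →L[ℝ] P073.E3) := ψ.arrowCongr ψ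

/-- the inverse conjugation -/
def Ψi : (P073.E3 →L[ℝ] P073.E3) →L[ℝ] (E →L[ℝ] E) := Ψ.symm

theorem fderiv_conj (k : P073.E3 → P073.E3) (F : E → (E →L[ℝ] E)) (x : E) :
    fderiv ℝ (fun x => ψ.symm (k (ψ x))) x - F x =
      Ψi (fderiv ℝ k (ψ x) - Ψ (F (ψ.symm (ψ x)))) := by
  have a1 : fderiv ℝ (fun x => ψ.symm (k (ψ x))) x =
      (ψ.symm : P073.E3 →L[ℝ] E).comp (fderiv ℝ (fun x => k (ψ x)) x) :=
    ψ.symm.comp_fderiv (f := fun x => k (ψ x)) (x := x)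
  have a2 : fderiv ℝ (fun x => k (ψ x)) x =
      (fderiv ℝ k (ψ x)).comp (ψ : E →L[ℝ] P073.E3) := ψ.comp_right_fderiv (f := k) (x := x)
  rw [a1, a2]
  ext1 v
  simp [Ψi, Ψ, ContinuousLinearEquiv.arrowCongr_apply]

theorem pre (S : Set E) : ψ ⁻¹' (ψ.symm ⁻¹' S) = S := by ext x; simp

theorem energy_back {k : P073.E3 → P073.E3} {F : E → (E →L[ℝ] E)} {Ω : Set E} {p ε : ℝ}
    (hp0 : 0 ≤ p) (hen : ∫⁻ y in ψ.symm ⁻¹' Ω, ‖fderiv ℝ k y - Ψ (F (ψ.symm y))‖ₑ ^ p <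
      ENNReal.ofReal ε) :
    ∫⁻ x in Ω, ‖fderiv ℝ (fun x => ψ.symm (k (ψ x))) x - F x‖ₑ ^ p ≤
      ENNReal.ofReal (‖Ψi‖ ^ p * ε) := by
  have h1 := lint_le mp ψ.toHomeomorph.measurableEmbedding Ψi
    (fun y => fderiv ℝ k y - Ψ (F (ψ.symm y))) (ψ.symm ⁻¹' Ω) hp0
  rw [pre] at h1
  simp only [fderiv_conj]
  refine h1.trans ?_
  rw [ENNReal.ofReal_mul (by positivity), ← ENNReal.ofReal_rpow_of_nonneg (norm_nonneg Ψi) hp0,
    ofReal_norm]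
  exact mul_le_mul_right hen.le _

theorem meas_conj {Ω : Set E} {F : E → (E →L[ℝ] E)}
    (hFm : AEStronglyMeasurable F (volume.restrict Ω)) :
    AEStronglyMeasurable (fun y => Ψ (F (ψ.symm y))) (volume.restrict (ψ.symm ⁻¹' Ω)) :=
  Ψ.continuous.comp_aestronglyMeasurable
    (hFm.comp_quasiMeasurePreserving
      (mp_symm.restrict_preimage_emb emb_symm Ω).quasiMeasurePreserving)

theorem fin_conj {Ω : Set E} {F : E → (E →L[ℝ] E)} {p : ℝ} (hp0 : 0 ≤ p)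
    (hFi : ∫⁻ x in Ω, ‖F x‖ₑ ^ p < ⊤) :
    ∫⁻ y in ψ.symm ⁻¹' Ω, ‖Ψ (F (ψ.symm y))‖ₑ ^ p < ⊤ := by
  have h1 := lint_le mp_symm emb_symm Ψ.toContinuousLinearMap F Ω hp0
  simp only [ContinuousLinearEquiv.coe_coe] at h1
  exact h1.trans_lt (ENNReal.mul_lt_top (ENNReal.rpow_lt_top_of_nonneg hp0 enorm_ne_top) hFi)

theorem disc_back {Z : Set P073.E3} {Ω : Set E} (hZ : P073.DiscreteIn Z (ψ.symm ⁻¹' Ω)) :
    P073.DiscreteIn (ψ ⁻¹' Z) Ω := by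
  refine ⟨fun x hx => by simpa using hZ.1 hx, fun x hx => ?_⟩
  obtain ⟨U, hU, hfin⟩ := hZ.2 (ψ x) (by simpa using hx)
  have h2 : (ψ ⁻¹' (Z ∩ U)).Finite := hfin.preimage ψ.injective.injOn
  exact ⟨ψ ⁻¹' U, ψ.continuous.continuousAt.preimage_mem_nhds hU, h2⟩

theorem homeo_back {k k' : P073.E3 → P073.E3} {Ω Λ : Set E} (hΛ : IsOpen Λ)
    (hk : P073.HomeoOn k k' (ψ.symm ⁻¹' Ω) (ψ.symm ⁻¹' Λ)) :
    Homeo (fun x => ψ.symm (k (ψ x))) Ω Λ := by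
  refine homeo_of_homeoOn (h' := fun x => ψ.symm (k' (ψ x))) hΛ ?_
  have := homeoOn_conj ψ.toHomeomorph hk
  rw [← pre Ω, ← pre Λ]
  exact this

theorem close_back {k : P073.E3 → P073.E3} {f : E → E} {x : E} {ε : ℝ}
    (h1 : dist (k (ψ x)) (ψ (f (ψ.symm (ψ x)))) ≤ ε) :
    ‖ψ.symm (k (ψ x)) - f x‖ ≤ ‖(ψ.symm : P073.E3 →L[ℝ] E)‖ * ε := by
  rw [dist_eq_norm] at h1
  simp only [ContinuousLinearEquiv.symm_apply_apply] at h1
  have h2 : ψ.symm (k (ψ x)) - f x = (ψ.symm : P073.E3 →L[ℝ] E) (k (ψ x) - ψ (f x)) := by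
    simp
  rw [h2]
  exact ((ψ.symm : P073.E3 →L[ℝ] E).le_opNorm _).trans
    (mul_le_mul_of_nonneg_left h1 (norm_nonneg _))

end Tr

open Tr in
theorem plae_of (hPLA : P073.PLA) {p : ℝ} (hp1 : 1 ≤ p) (hp2 : p < 2) : PLAE p := by
  intro Ω Λ f f' F ε hΩ hΛ hcΩ hcΛ hbΩ hbΛ hε hf hFm hFi hw
  have hp0 : 0 ≤ p := by linarith
  obtain ⟨ε', hε'0, he1, he2⟩ : ∃ ε' : ℝ, 0 < ε' ∧ ‖(ψ.symm : P073.E3 →L[ℝ] E)‖ * ε' ≤ ε ∧
      ‖Ψi‖ ^ p * ε' ≤ ε := by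
    have hc10 : 0 ≤ ‖(ψ.symm : P073.E3 →L[ℝ] E)‖ := norm_nonneg _
    have hc20 : 0 ≤ ‖Ψi‖ ^ p := by positivity
    generalize ‖(ψ.symm : P073.E3 →L[ℝ] E)‖ = c1 at hc10 ⊢
    generalize ‖Ψi‖ ^ p = c2 at hc20 ⊢
    have hden : 0 < c1 + c2 + 1 := by linarith
    have h0 : 0 < ε / (c1 + c2 + 1) := div_pos hε hden
    have he : (c1 + c2 + 1) * (ε / (c1 + c2 + 1)) = ε := by field_simp
    exact ⟨_, h0, by nlinarith, by nlinarith⟩
  have hbd : ∀ {S : Set E}, Bornology.IsBounded S → Bornology.IsBounded (ψ.symm ⁻¹' S) :=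
    fun hS => ψ.symm.antilipschitz.isBounded_preimage hS
  obtain ⟨k, k', Z, hk, hZ, hcon, hcl, hen⟩ := hPLA (Ω := ψ.symm ⁻¹' Ω) (Λ := ψ.symm ⁻¹' Λ)
    (f := fun y => ψ (f (ψ.symm y))) (f' := fun y => ψ (f' (ψ.symm y)))
    (F := fun y => Ψ (F (ψ.symm y))) (p := p) (ε := ε')
    (hΩ.preimage ψ.symm.continuous) (hΛ.preimage ψ.symm.continuous)
    (ψ.symm.toHomeomorph.isConnected_preimage.2 hcΩ)
    (ψ.symm.toHomeomorph.isConnected_preimage.2 hcΛ) (hbd hbΩ) (hbd hbΛ) hp1 hp2 hε'0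
    (homeoOn_conj ψ.symm.toHomeomorph hf) (meas_conj hFm) (fin_conj hp0 hFi) (weak_conj hw)
  refine ⟨fun x => ψ.symm (k (ψ x)), ψ ⁻¹' Z, homeo_back hΛ hk, locFin_of (disc_back hZ),
    fun x hx hxZ => ?_, fun x hx => (close_back (hcl (ψ x) (by simpa using hx))).trans he1,
    (energy_back hp0 hen).trans (ENNReal.ofReal_le_ofReal he2)⟩
  have hx' : ψ x ∈ ψ.symm ⁻¹' Ω \ Z := ⟨by simpa using hx, hxZ⟩
  exact coneAt_of (isOpen_diff (hΩ.preimage ψ.symm.continuous) hZ) hx' (hcon _ hx')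

end Vale.Agent.P073Z.Fin
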